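import Vale.Agent.P028.H530.OutLaw
import Vale.Agent.P028.H132.RowG
attribute [-instance] ProperSMul.toContinuousSMul IsTopologicalTorsor.toContinuousSMul IdemSemiring.toCanonicallyOrderedAdd IdemSemiring.toMulLeftMono IdemSemiring.toMulRightMono AddQuantale.instAddLeftMono AddQuantale.instAddRightMono Quantale.instMulLeftMono Quantale.instMulRightMono FiniteDimensional.rclike_to_real IsScalarTower.complexToReal FiniteDimensional.complexToReal

/-!
# The rows of the new member in the language of numbers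

`x` is charged, `i` runs over stages of newness of `x`, the partners `y` are in the `z_i`-cell of
`x` (arbitrary inner parts), the total weight of the partners with a given outer deficit is at
most `C₀`.
-/

namespace Vale.P028.SK

open Finset CF RN H669 RK

variable {g : Cfg}

/-- the family of the partners of `x` at stages of newness of `x` -/
structure RowI (g : Cfg) (x : ℕ) (I : Finset ℕ) (Y : ℕ → Finset ℕ) (w : ℕ → ℕ → ℝ) (C₀ : ℝ) :
    Prop where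
  nw : ∀ i ∈ I, 1 ≤ i ∧ i ≤ nst g ∧ Nw g i x
  inj : Set.InjOn (fun i => N g - z g i) (I : Set ℕ)
  sub : ∀ i ∈ I, Y i ⊆ g.V
  cell : ∀ i ∈ I, ∀ y ∈ Y i, y ∈ NT.cell g.V (f g) (thr g) (N g) (z g i) x
  nonneg : ∀ i ∈ I, ∀ y ∈ Y i, 0 ≤ w i y
  C0_nonneg : 0 ≤ C₀
  fib : ∀ i ∈ I, ∀ m, ∑ y ∈ (Y i).filter (fun y => M g i y = m), w i y ≤ C₀

/-- different stages have different places if `z 2 < N` -/
theorem inj_of_z2 (hJ : JsOK g.K g.Js) (hX : g.Js ≤ g.X) (h2 : z g 2 < N g) {I : Finset ℕ}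
    (hI : I ⊆ Icc 1 (nst g)) : Set.InjOn (fun i => N g - z g i) (I : Set ℕ) := by
  have key : ∀ i j, 1 ≤ i → i < j → j ≤ nst g → N g - z g i < N g - z g j := by
    intro i j hi hij hj
    have h1 := z_strict hJ hX hi hij hj
    have h3 : z g j ≤ z g 2 := z_anti g (by omega)
    omega
  intro i hi j hj hij
  have h1 := mem_Icc.1 (hI (by exact_mod_cast hi))
  have h3 := mem_Icc.1 (hI (by exact_mod_cast hj))
  simp only at hij
  rcases lt_trichotomy i j with h | h | h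
  · have := key i j h1.1 h h3.2
    omega
  · exact h
  · have := key j i h3.1 h h1.2
    omega

open Classical in
/-- the weight of the partners over a hybrid word -/
noncomputable def GN (g : Cfg) (x : ℕ) (I : Finset ℕ) (Y : ℕ → Finset ℕ) (w : ℕ → ℕ → ℝ) (a : ℕ)
    (v : Fin (N g) → Fin (Eb g + 1)) : ℝ :=
  ∑ i ∈ I.filter (fun i => N g - z g i = a), ∑ y ∈ (Y i).filter (fun y => hbw g i y x = v), w i y

section

variable {x : ℕ} {I : Finset ℕ} {Y : ℕ → Finset ℕ} {w : ℕ → ℕ → ℝ} {C₀ : ℝ}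

theorem RowI.GN_nonneg (h : RowI g x I Y w C₀) (a : ℕ) (v : Fin (N g) → Fin (Eb g + 1)) :
    0 ≤ GN g x I Y w a v :=
  sum_nonneg fun i hi => sum_nonneg fun y hy =>
    h.nonneg i (mem_filter.1 hi).1 y (mem_filter.1 hy).1

open Classical in
/-- the weight over a hybrid word is at most the weight over an outer deficit -/
theorem fib_hbw {i x : ℕ} {Y : Finset ℕ} {w : ℕ → ℝ} {C₀ : ℝ} (hz : zs g ≤ z g i)
    (hYV : Y ⊆ g.V) (hY : ∀ y ∈ Y, y ∈ NT.cell g.V (f g) (thr g) (N g) (z g i) x)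
    (hw : ∀ y ∈ Y, 0 ≤ w y) (hC0 : 0 ≤ C₀)
    (hC : ∀ m, ∑ y ∈ Y.filter (fun y => M g i y = m), w y ≤ C₀)
    (v : Fin (N g) → Fin (Eb g + 1)) :
    ∑ y ∈ Y.filter (fun y => hbw g i y x = v), w y ≤ C₀ := by
  rcases (Y.filter (fun y => hbw g i y x = v)).eq_empty_or_nonempty with h0 | ⟨y₀, hy₀⟩
  · rw [h0, sum_empty]
    exact hC0
  · obtain ⟨hy1, hy2⟩ := mem_filter.1 hy₀
    refine le_trans ?_ (hC (M g i y₀))
    refine sum_le_sum_of_subset_of_nonneg (fun y hy => ?_) fun y hy _ =>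
      hw y (mem_filter.1 hy).1
    obtain ⟨h1, h2⟩ := mem_filter.1 hy
    exact mem_filter.2 ⟨h1, M_of_hbw (hY y h1) (hY y₀ hy1) hz (hYV h1) (hYV hy1)
      (h2.trans hy2.symm)⟩

open Classical in
theorem RowI.GN_le (hJ : JsOK g.K g.Js) (hX : g.Js ≤ g.X) (h : RowI g x I Y w C₀) (a : ℕ)
    (v : Fin (N g) → Fin (Eb g + 1)) : GN g x I Y w a v ≤ C₀ := by
  unfold GN
  rcases (I.filter (fun i => N g - z g i = a)).eq_empty_or_nonempty with h0 | ⟨i₀, hi₀⟩
  · rw [h0, sum_empty]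
    exact h.C0_nonneg
  · obtain ⟨h1, h2⟩ := mem_filter.1 hi₀
    rw [sum_eq_single_of_mem i₀ hi₀ fun i hi hne => ?_]
    · exact fib_hbw (zs_le_z hJ hX i₀) (h.sub i₀ h1) (h.cell i₀ h1) (h.nonneg i₀ h1) h.C0_nonneg
        (h.fib i₀ h1) v
    · exfalso
      obtain ⟨h3, h4⟩ := mem_filter.1 hi
      exact hne (h.inj (by exact_mod_cast h3) (by exact_mod_cast h1) (by
        simp only
        rw [h4, h2]))

open Classical in
theorem RowI.le_GN (h : RowI g x I Y w C₀) {i : ℕ} (hi : i ∈ I)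
    (v : Fin (N g) → Fin (Eb g + 1)) :
    ∑ y ∈ (Y i).filter (fun y => hbw g i y x = v), w i y ≤ GN g x I Y w (N g - z g i) v :=
  single_le_sum (f := fun i => ∑ y ∈ (Y i).filter (fun y => hbw g i y x = v), w i y)
    (fun i' hi' => sum_nonneg fun y hy => h.nonneg i' (mem_filter.1 hi').1 y (mem_filter.1 hy).1)
    (mem_filter.2 ⟨hi, rfl⟩)

/-- the word of `x` has the positions of `x` -/
theorem ChW_self {S : Finset ℕ} (hS : S ⊆ g.V) (hx : x ∈ S) :
    ChW g S (bl g x) (wo g x) = NwP g x := by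
  unfold ChW
  rw [nu_wo (hS hx), if_pos hx]

theorem sum_pos_le {I : Finset ℕ} (hinj : Set.InjOn (fun i => N g - z g i) (I : Set ℕ))
    {T : Finset ℕ} (hT : ∀ i ∈ I, N g - z g i ∈ T) {F : ℕ → ℝ} (hF : ∀ a ∈ T, 0 ≤ F a) :
    ∑ i ∈ I, F (N g - z g i) ≤ ∑ a ∈ T, F a := by
  classical
  rw [← sum_image (g := fun i => N g - z g i) (f := F) hinj]
  refine sum_le_sum_of_subset_of_nonneg (fun a ha => ?_) fun a ha _ => hF a ha
  obtain ⟨i, hi, rfl⟩ := mem_image.1 ha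
  exact hT i hi

theorem NwP_of_Nw {i : ℕ} (h : 1 ≤ i ∧ i ≤ nst g ∧ Nw g i x) : N g - z g i ∈ NwP g x :=
  mem_NwP.2 ⟨i, h.1, h.2.1, h.2.2, rfl⟩

open Classical in
/-- **THE NEW ROW in numbers**, phases which pay and the last phase -/
theorem new_row_num1 (hJ : JsOK g.K g.Js) (hX : g.Js ≤ g.X) (hV : g.V ⊆ Icc 1 (N g)) {c1 c : ℝ}
    (h1 : 0 < c1) (h1e : c1 * Real.exp 24 ≤ 1) (hc : 0 < c) (hc1 : c ≤ 1)
    (hz : 4 ≤ c1 * zs g) (hx : x ∈ g.V) (h : RowI g x I Y w C₀)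
    (hp : ∀ i ∈ I, Pyw g c1 x (N g - z g i) ∨ ∀ t ∈ NwP g x, t ≤ N g - z g i) :
    ∑ i ∈ I, Vt (c * c1 / 8) (Pyw g c1 x) (NwP g x) (N g - z g i) *
      ∑ y ∈ Y i, Wt g i y * w i y ≤ (1 / (c * c1 / 8) + 1) * C₀ * (7 / 4) := by
  have H := sys_base hJ hX hV h1 h1e hc hc1 hz (Subset.refl g.V) hx
  have hκ := H.κ_pos
  have hCh := ChW_self (Subset.refl g.V) hx
  have hnu : nu g (bl g x) (wo g x) = x := nu_wo hx
  have hrow := new_row_gen1 H (σ := fun _ => 1) (fun _ => zero_le_one) (wo g x)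
    (G := GN g x I Y w) (C0 := C₀) h.C0_nonneg (fun a _ z => h.GN_le hJ hX a _)
  rw [hCh, hnu] at hrow
  have hD := Dm_one (π := wn g x) (wn_sum hx) (wo g x)
  have h2 : (1 / (c * c1 / 8) + 1) * C₀ * Dm (wn g x) (fun _ => 1) (wo g x) ≤
      (1 / (c * c1 / 8) + 1) * C₀ * (7 / 4) :=
    mul_le_mul_of_nonneg_left hD (mul_nonneg (by positivity) h.C0_nonneg)
  refine le_trans ?_ (hrow.trans h2)
  have hV0 : ∀ a, 0 ≤ Vt (c * c1 / 8) (Pyw g c1 x) (NwP g x) a := fun a =>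
    (Vt_bounds H.κ_pos.le H.κ_le a).1
  refine le_trans ?_ (sum_pos_le h.inj (F := fun a => Vt (c * c1 / 8) (Pyw g c1 x) (NwP g x) a *
    cE (wn g x) a (fun v => GN g x I Y w a v * (1 : ℝ) ^ 3) (wo g x))
    (fun i hi => mem_filter.2 ⟨NwP_of_Nw (h.nw i hi), hp i hi⟩) (fun a _ => mul_nonneg (hV0 a)
      (cE_nonneg (wn_nonneg x) (fun v => mul_nonneg (h.GN_nonneg a v) (by norm_num)) _)))
  refine sum_le_sum fun i hi => mul_le_mul_of_nonneg_left ?_ (hV0 _)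
  have h3 := out_row_G (zs_le_z hJ hX i) hx (Y i) (h.sub i hi) (h.cell i hi) (h.nonneg i hi)
    (Φ := fun _ => 1) (fun _ => zero_le_one)
  simp only [mul_one] at h3
  refine h3.trans (cE_mono (wn_nonneg x) (fun v => ?_) _)
  rw [one_pow, mul_one]
  exact h.le_GN hi v

open Classical in
/-- **THE NEW ROW in numbers**, phases which do not pay -/
theorem new_row_num2 (hJ : JsOK g.K g.Js) (hX : g.Js ≤ g.X) (hV : g.V ⊆ Icc 1 (N g)) {c1 c : ℝ}
    (h1 : 0 < c1) (h1e : c1 * Real.exp 24 ≤ 1) (hc : 0 < c) (hc1 : c ≤ 1)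
    (hz : 4 ≤ c1 * zs g) (hx : x ∈ g.V) (h : RowI g x I Y w C₀)
    (hp : ∀ i ∈ I, ¬ Pyw g c1 x (N g - z g i)) :
    ∑ i ∈ I, Vt (c * c1 / 8) (Pyw g c1 x) (NwP g x) (N g - z g i) *
      (Real.exp (-RK.W (fun k => uw g x k = true) (muw g c1 x) (N g - z g i)) *
        ∑ y ∈ Y i, Wt g i y *
          (Real.exp (RK.W (fun k => uw g y k = true) (muw g c1 y) (N g - z g i)) * w i y)) ≤
      4 / (c * c1 / 8) * C₀ * (7 / 4) := by
  have H := sys_base hJ hX hV h1 h1e hc hc1 hz (Subset.refl g.V) hx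
  have hκ := H.κ_pos
  have hCh := ChW_self (Subset.refl g.V) hx
  have hnu : nu g (bl g x) (wo g x) = x := nu_wo hx
  have hrow := new_row_gen2 H (σ := fun _ => 1) (fun _ => zero_le_one) (wo g x)
    (G := GN g x I Y w) (C0 := C₀) h.C0_nonneg (fun a _ z => h.GN_le hJ hX a _)
  rw [hCh, hnu] at hrow
  have hD := Dm_one (π := wn g x) (wn_sum hx) (wo g x)
  have h2 : 4 / (c * c1 / 8) * C₀ * Dm (wn g x) (fun _ => 1) (wo g x) ≤
      4 / (c * c1 / 8) * C₀ * (7 / 4) :=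
    mul_le_mul_of_nonneg_left hD (mul_nonneg (by positivity) h.C0_nonneg)
  refine le_trans ?_ (hrow.trans h2)
  have hV0 : ∀ a, 0 ≤ Vt (c * c1 / 8) (Pyw g c1 x) (NwP g x) a := fun a =>
    (Vt_bounds H.κ_pos.le H.κ_le a).1
  refine le_trans ?_ (sum_pos_le h.inj (F := fun a => Vt (c * c1 / 8) (Pyw g c1 x) (NwP g x) a *
    (Real.exp (-RK.W (dvw (fun _ => 0) (wo g x)) (muw g c1 x) a) *
      cE (wn g x) a (fun v => Real.exp (RK.W (dvw (fun _ => 0) v) (muw g c1 x) a) *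
        (GN g x I Y w a v * (1 : ℝ) ^ 3)) (wo g x)))
    (fun i hi => mem_filter.2 ⟨NwP_of_Nw (h.nw i hi), hp i hi⟩) (fun a _ => mul_nonneg (hV0 a)
      (mul_nonneg (Real.exp_pos _).le (cE_nonneg (wn_nonneg x) (fun v =>
        mul_nonneg (Real.exp_pos _).le (mul_nonneg (h.GN_nonneg a v) (by norm_num))) _))))
  refine sum_le_sum fun i hi => mul_le_mul_of_nonneg_left ?_ (hV0 _)
  have e1 : RK.W (fun k => uw g x k = true) (muw g c1 x) (N g - z g i) =
      RK.W (dvw (fun _ => 0) (wo g x)) (muw g c1 x) (N g - z g i) :=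
    RK.W_congr fun k _ => uw_dvw x k
  rw [e1]
  refine mul_le_mul_of_nonneg_left ?_ (Real.exp_pos _).le
  have h3 := out_row_G (zs_le_z hJ hX i) hx (Y i) (h.sub i hi) (h.cell i hi) (h.nonneg i hi)
    (Φ := fun v => Real.exp (RK.W (dvw (fun _ => 0) v) (muw g c1 x) (N g - z g i)))
    (fun _ => (Real.exp_pos _).le)
  have e2 : ∑ y ∈ Y i, Wt g i y *
          (Real.exp (RK.W (fun k => uw g y k = true) (muw g c1 y) (N g - z g i)) * w i y) =
      ∑ y ∈ Y i, Wt g i y * (w i y *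
        Real.exp (RK.W (dvw (fun _ => 0) (hbw g i y x)) (muw g c1 x) (N g - z g i))) := by
    refine sum_congr rfl fun y hy => ?_
    rw [W_hbw (h.cell i hi y hy) c1 le_rfl]
    ring
  rw [e2]
  refine h3.trans (cE_mono (wn_nonneg x) (fun v => ?_) _)
  rw [one_pow, mul_one, mul_comm]
  exact mul_le_mul_of_nonneg_left (h.le_GN hi v) (Real.exp_pos _).le

end

end Vale.P028.SK
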