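import Vale.Agent.P028.MathlibUsed
import Vale.Agent.P028.H669.Path

/-!
# The old row (P1), in the form of helper367's Lemma (H)
-/

namespace Vale.P028.H669

open Finset

variable {μ : ℕ → ℝ} {u : ℕ → Bool} {T : ℕ} {Nw : Finset ℕ}

/-- one phase: between two elements of `I` the walk does not rise by `1/4` -/
theorem sum_phase {lam : ℝ} (hl : 0 < lam) (hμ : ∀ j, 0 ≤ μ j) (I : Finset ℕ)
    (hI : Set.InjOn (pc μ u) I) (hH : ∀ i ∈ I, ∀ i' ∈ I, i < i' → Wk μ u i i' < 1 / 4) :
    ∑ i ∈ I, Real.exp (-(lam * YY μ u i)) ≤ C0 lam (3 / 8) 2 := by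
  rcases I.eq_empty_or_nonempty with he | hne
  · rw [he, sum_empty]
    exact C0_nonneg _ _ _
  have h1 : ∀ i ∈ I, eM μ u (I.min' hne) i ≤ dN u (I.min' hne) i + 1 / 4 := by
    intro i hi
    rcases eq_or_lt_of_le (min'_le I i hi) with h | h
    · rw [← h, eM_self, dN_self]
      norm_num
    · have h2 := hH _ (min'_mem I hne) i hi h
      unfold Wk at h2
      linarith
  refine core hl (by norm_num) 2 hμ I hI (I.min' hne) (fun i hi => min'_le _ _ hi)
    (fun i hi => ?_) (fun i hi => ?_)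
  · have h2 := h1 i hi
    have h8 : (0 : ℝ) ≤ dN u (I.min' hne) i := Nat.cast_nonneg _
    push_cast
    linarith
  · have h2 := h1 i hi
    have h3 := le_YY (μ := μ) (u := u) (min'_le I i hi)
    have h8 : (0 : ℝ) ≤ dN u (I.min' hne) i := Nat.cast_nonneg _
    linarith

/-- (R3) THE OLD ROW.  `I` : T-start boundaries of the old element, all in different pieces;
`g i` : bound of the pair factor by the payments of the later phases. -/
theorem row_old {lam ρ : ℝ} (hl : 0 < lam) (h0 : 0 ≤ ρ) (h1 : ρ < 1) (hμ : ∀ j, 0 ≤ μ j)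
    (hD : ∀ j ∈ Nw, ∀ k ∈ Nw, j < k → 1 ≤ dN u j k) (I : Finset ℕ)
    (hI : Set.InjOn (pc μ u) I) (hIT : ∀ i ∈ I, i ≤ T) (hI0 : ∀ i ∈ I, ∃ j ∈ Nw, j ≤ i)
    (hH : ∀ i ∈ I, ∀ i' ∈ I, i < i' → (∀ j ∈ Nw, ¬ (i < j ∧ j ≤ i')) → Wk μ u i i' < 1 / 4)
    (g : ℕ → ℝ) (hg : ∀ i ∈ I, g i ≤ ρ ^ npay μ u T Nw (i + 1)) :
    ∑ i ∈ I, g i * Real.exp (-(lam * YY μ u i)) ≤ 2 * C0 lam (3 / 8) 2 / (1 - ρ) := by
  classical
  have hC := C0_nonneg lam (3 / 8) 2
  refine sum_fib _ (fun i => npay μ u T Nw (i + 1)) _ (fun i => Real.exp (-(lam * YY μ u i)))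
    h0 h1 (by linarith) (fun i hi => mul_le_mul_of_nonneg_right (hg i hi) (Real.exp_pos _).le)
    (fun m => ?_)
  set J := I.filter (fun i => npay μ u T Nw (i + 1) = m) with hJ
  have hJm : ∀ i ∈ J, i ∈ I ∧ npay μ u T Nw (i + 1) = m := fun i hi => mem_filter.1 hi
  -- the start of the phase of `i`
  have hst : ∀ i ∈ J, (Nw.filter (fun j => j ≤ i)).Nonempty := by
    intro i hi
    obtain ⟨j, hj, hji⟩ := hI0 i (hJm i hi).1
    exact ⟨j, mem_filter.2 ⟨hj, hji⟩⟩
  let st : ℕ → ℕ := fun i => if h : (Nw.filter (fun j => j ≤ i)).Nonempty then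
    (Nw.filter (fun j => j ≤ i)).max' h else 0
  have hst1 : ∀ i ∈ J, st i ∈ Nw ∧ st i ≤ i := by
    intro i hi
    have h2 := max'_mem _ (hst i hi)
    rw [mem_filter] at h2
    simp only [st, dif_pos (hst i hi)]
    exact h2
  have hst2 : ∀ i ∈ J, ∀ j ∈ Nw, j ≤ i → j ≤ st i := by
    intro i hi j hj hji
    simp only [st, dif_pos (hst i hi)]
    exact le_max' _ _ (mem_filter.2 ⟨hj, hji⟩)
  -- split according to the phase of `i`
  have hsplit := sum_filter_add_sum_filter_not J (fun i => Pays μ u T Nw (st i))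
    (fun i => Real.exp (-(lam * YY μ u i)))
  rw [← hsplit]
  have hA : ∑ i ∈ J.filter (fun i => Pays μ u T Nw (st i)), Real.exp (-(lam * YY μ u i)) ≤
      C0 lam (3 / 8) 2 := by
    refine sum_phase hl hμ _ (hI.mono fun i hi => ?_) (fun i hi i' hi' hlt => ?_)
    · rw [mem_coe, mem_filter] at hi
      exact (hJm i hi.1).1
    · rw [mem_filter] at hi hi'
      refine hH i (hJm i hi.1).1 i' (hJm i' hi'.1).1 hlt fun j hj hcon => ?_
      -- `i` is before the start of the phase of `i'`, which pays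
      have h2 : i < st i' := lt_of_lt_of_le hcon.1 (hst2 i' hi'.1 j hj hcon.2)
      have h3 := hst1 i' hi'.1
      have h4 := npay_lt (μ := μ) (u := u) (T := T) (Nw := Nw) (i := i + 1) (k := i' + 1) h3.1
        hi'.2 (by omega) (by omega)
      rw [(hJm i hi.1).2, (hJm i' hi'.1).2] at h4
      exact lt_irrefl _ h4
  have hB : ∑ i ∈ J.filter (fun i => ¬ Pays μ u T Nw (st i)), Real.exp (-(lam * YY μ u i)) ≤
      C0 lam (3 / 8) 2 := by
    set B := J.filter (fun i => ¬ Pays μ u T Nw (st i)) with hBdef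
    rcases B.eq_empty_or_nonempty with he | hne
    · rw [he, sum_empty]
      exact hC
    have hm := mem_filter.1 (min'_mem B hne)
    have h5 := hst1 _ hm.1
    refine sum_chain (T := T) hl hμ hD (j1 := st (B.min' hne)) h5.1 B (hI.mono fun i hi => ?_)
      (fun i hi => h5.2.trans (min'_le B i hi)) (fun i hi => ?_) ?_
    · rw [mem_coe, hBdef, mem_filter] at hi
      exact (hJm i hi.1).1
    · rw [hBdef, mem_filter] at hi
      exact hIT i (hJm i hi.1).1
    · intro i hi j hj hj1 hji hp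
      have hiJ := (mem_filter.1 hi).1
      rcases eq_or_lt_of_le hj1 with h6 | h6
      · exact hm.2 (by rw [h6]; exact hp)
      · -- `j` is after `min B`
        have h7 : B.min' hne < j := by
          by_contra hcon
          have := hst2 _ hm.1 j hj (not_lt.1 hcon)
          omega
        have h8 := npay_lt (μ := μ) (u := u) (T := T) (Nw := Nw) (i := B.min' hne + 1)
          (k := i + 1) hj hp (by omega) (by omega)
        rw [(hJm _ hm.1).2, (hJm i hiJ).2] at h8
        exact lt_irrefl _ h8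
  linarith

end Vale.P028.H669
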