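import Vale.Agent.P028.MathlibUsed

/-!
# Ranks of a two-letter walk (combinatorial core of helper132's note 16137)

`u k = true` : the unit `k` is of type `D` (deviation), `u k = false` : of type `E`.
`S u a b = #E - #D` over the units `a, ..., b - 1`.  The boundary `a` is linked to the boundary
`i > a` if `S u a b ≤ 0` for all `b` in `(a, i]`.  The rank of `i` is the number of boundaries
linked to it.
-/

namespace Vale.P028.H669

open Finset

/-- the step of the walk -/
def stp (d : Bool) : ℤ := if d then -1 else 1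

/-- `#E - #D` over the units of `[a, b)` -/
def S (u : ℕ → Bool) (a b : ℕ) : ℤ := ∑ k ∈ Ico a b, stp (u k)

/-- `a` is linked to `i` -/
def Lnk (u : ℕ → Bool) (a i : ℕ) : Prop := a < i ∧ ∀ b, a < b → b ≤ i → S u a b ≤ 0

open Classical in
/-- the boundaries in `[o, i)` linked to `i` -/
noncomputable def Lam (u : ℕ → Bool) (o i : ℕ) : Finset ℕ := (Ico o i).filter (fun a => Lnk u a i)

/-- the rank of `i` from `o` on -/
noncomputable def rk (u : ℕ → Bool) (o i : ℕ) : ℕ := (Lam u o i).card

variable {u : ℕ → Bool}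

theorem mem_Lam {o i a : ℕ} : a ∈ Lam u o i ↔ o ≤ a ∧ Lnk u a i := by
  classical
  unfold Lam
  rw [mem_filter, mem_Ico]
  constructor
  · rintro ⟨⟨h1, h2⟩, h3⟩
    exact ⟨h1, h3⟩
  · rintro ⟨h1, h3⟩
    exact ⟨⟨h1, h3.1⟩, h3⟩

theorem S_self (a : ℕ) : S u a a = 0 := by simp [S]

theorem S_succ {a b : ℕ} (h : a ≤ b) : S u a (b + 1) = S u a b + stp (u b) := by
  unfold S
  rw [sum_Ico_succ_top h]

theorem S_add {a b c : ℕ} (h1 : a ≤ b) (h2 : b ≤ c) : S u a b + S u b c = S u a c := by
  unfold S
  exact sum_Ico_consecutive _ h1 h2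

theorem S_congr {v : ℕ → Bool} {a b : ℕ} (h : ∀ k, a ≤ k → k < b → u k = v k) :
    S u a b = S v a b := by
  unfold S
  refine sum_congr rfl fun k hk => ?_
  rw [mem_Ico] at hk
  rw [h k hk.1 hk.2]

theorem stp_cases (d : Bool) : stp d = 1 ∨ stp d = -1 := by
  unfold stp
  split_ifs
  · right; rfl
  · left; rfl

theorem Lnk.trans {a b c : ℕ} (h1 : Lnk u a b) (h2 : Lnk u b c) : Lnk u a c := by
  refine ⟨h1.1.trans h2.1, fun k hk hk2 => ?_⟩
  rcases le_or_gt k b with h | h
  · exact h1.2 k hk h
  · rw [← S_add h1.1.le h.le]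
    have := h1.2 b h1.1 le_rfl
    have := h2.2 k h hk2
    linarith

theorem Lnk.mono {a b c : ℕ} (h1 : Lnk u a c) (hab : a < b) (hbc : b ≤ c) : Lnk u a b :=
  ⟨hab, fun k hk hk2 => h1.2 k hk (hk2.trans hbc)⟩

theorem Lnk.congr {v : ℕ → Bool} {a i : ℕ} (h : ∀ k, a ≤ k → k < i → u k = v k)
    (h1 : Lnk u a i) : Lnk v a i := by
  refine ⟨h1.1, fun b hb hb2 => ?_⟩
  rw [← S_congr (fun k hk hk2 => h k hk (lt_of_lt_of_le hk2 hb2))]
  exact h1.2 b hb hb2

theorem Lam_mono_left {o o' i : ℕ} (h : o ≤ o') : Lam u o' i ⊆ Lam u o i := by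
  intro a ha
  rw [mem_Lam] at ha ⊢
  exact ⟨h.trans ha.1, ha.2⟩

theorem Lam_split {o i a : ℕ} (ho : o ≤ a) (ha : Lnk u a i) : Lam u o i = Lam u o a ∪ Lam u a i := by
  ext b
  rw [mem_union, mem_Lam, mem_Lam, mem_Lam]
  constructor
  · rintro ⟨h1, h2⟩
    rcases lt_or_ge b a with h | h
    · exact Or.inl ⟨h1, h2.mono h ha.1.le⟩
    · exact Or.inr ⟨h, h2⟩
  · rintro (⟨h1, h2⟩ | ⟨h1, h2⟩)
    · exact ⟨h1, h2.trans ha⟩
    · exact ⟨ho.trans h1, h2⟩

/-- ranks are additive along links -/
theorem rk_add {o i a : ℕ} (ho : o ≤ a) (ha : Lnk u a i) : rk u o i = rk u o a + rk u a i := by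
  unfold rk
  rw [Lam_split ho ha, card_union_of_disjoint]
  rw [disjoint_left]
  intro b hb hb2
  rw [mem_Lam] at hb hb2
  have := hb.2.1
  omega

theorem rk_pos {o i a : ℕ} (ho : o ≤ a) (ha : Lnk u a i) : 1 ≤ rk u o i := by
  unfold rk
  exact card_pos.2 ⟨a, mem_Lam.2 ⟨ho, ha⟩⟩

theorem rk_lt {o i a : ℕ} (ho : o ≤ a) (ha : Lnk u a i) : rk u o a + 1 ≤ rk u o i := by
  rw [rk_add ho ha]
  have := rk_pos (le_refl a) ha
  omega

/-- the rank of `i` depends on the units before `i` only -/
theorem rk_congr {v : ℕ → Bool} {o i : ℕ} (h : ∀ k, o ≤ k → k < i → u k = v k) :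
    rk u o i = rk v o i := by
  unfold rk
  congr 1
  ext a
  rw [mem_Lam, mem_Lam]
  constructor
  · rintro ⟨h1, h2⟩
    exact ⟨h1, h2.congr fun k hk hk2 => h k (h1.trans hk) hk2⟩
  · rintro ⟨h1, h2⟩
    exact ⟨h1, h2.congr fun k hk hk2 => (h k (h1.trans hk) hk2).symm⟩

/-! ### The tree of the linked boundaries -/

/-- the parent: the largest linked boundary -/
noncomputable def par (u : ℕ → Bool) (o i : ℕ) : ℕ := (Lam u o i).sup id

theorem par_mem {o i : ℕ} (h : (Lam u o i).Nonempty) : par u o i ∈ Lam u o i := by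
  obtain ⟨a, ha, hb⟩ := exists_mem_eq_sup _ h id
  unfold par
  rw [hb]
  exact ha

theorem le_par {o i a : ℕ} (h : a ∈ Lam u o i) : a ≤ par u o i := by
  unfold par
  exact le_sup (f := id) h

/-- the rank of a child is the rank of the parent plus one -/
theorem rk_par {o i : ℕ} (h : (Lam u o i).Nonempty) : rk u o i = rk u o (par u o i) + 1 := by
  have h1 := par_mem h
  rw [mem_Lam] at h1
  rw [rk_add h1.1 h1.2]
  congr 1
  unfold rk
  rw [card_eq_one]
  refine ⟨par u o i, ?_⟩
  ext b
  rw [mem_singleton, mem_Lam]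
  constructor
  · rintro ⟨h2, h3⟩
    exact le_antisymm (le_par (mem_Lam.2 ⟨h1.1.trans h2, h3⟩)) h2
  · rintro rfl
    exact ⟨le_rfl, h1.2⟩

/-- a child of `a` is either `a + 1`, or the first return to the level of `a` -/
theorem child {o i : ℕ} (h : (Lam u o i).Nonempty) :
    i = par u o i + 1 ∨ (S u (par u o i) i = 0 ∧
      ∀ b, par u o i < b → b < i → S u (par u o i) b < 0) := by
  have h1 := par_mem h
  rw [mem_Lam] at h1
  obtain ⟨ho, ha, hS⟩ := h1
  set a := par u o i with hadef
  -- a boundary linked to `i` is at most `a`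
  have hmax : ∀ b, a < b → ¬ Lnk u b i := by
    intro b hb hl
    have := le_par (mem_Lam.2 ⟨ho.trans hb.le, hl⟩)
    omega
  by_cases hia : i = a + 1
  · exact Or.inl hia
  right
  -- every `b` in `(a, i)` has level below that of `i`
  have key : ∀ n b, i - b = n → a < b → b < i → S u a b < S u a i := by
    intro n
    induction n using Nat.strong_induction_on with
    | _ n ih =>
      intro b hn hb hbi
      by_contra hcon
      rw [not_lt] at hcon
      refine hmax b hb ⟨hbi, fun c hc hci => ?_⟩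
      have e : S u a b + S u b c = S u a c := S_add hb.le hc.le
      rcases eq_or_lt_of_le hci with rfl | hci'
      · linarith
      · have := ih (i - c) (by omega) c rfl (hb.trans hc) hci'
        linarith
  have hSi : S u a i ≤ 0 := hS i ha le_rfl
  have h2 : S u a (a + 1) < S u a i := key _ (a + 1) rfl (by omega) (by omega)
  have h3 : S u a (a + 1) = stp (u a) := by
    rw [S_succ le_rfl, S_self]; ring
  have h4 : S u a i = 0 := by
    rcases stp_cases (u a) with h5 | h5
    · rw [h3, h5] at h2; linarith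
    · rw [h3, h5] at h2
      omega
  exact ⟨h4, fun b hb hbi => by rw [← h4]; exact key _ b rfl hb hbi⟩

/-- at most two children -/
theorem card_children (o a : ℕ) (T : Finset ℕ)
    (hT : ∀ i ∈ T, (Lam u o i).Nonempty ∧ par u o i = a) : T.card ≤ 2 := by
  classical
  -- the children other than `a + 1` coincide
  have h1 : ∀ i ∈ T.erase (a + 1), ∀ j ∈ T.erase (a + 1), i = j := by
    intro i hi j hj
    rw [mem_erase] at hi hj
    obtain ⟨hi1, hi2⟩ := hi
    obtain ⟨hj1, hj2⟩ := hj
    have hi3 := child (hT i hi2).1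
    have hj3 := child (hT j hj2).1
    have hia := (mem_Lam.1 (par_mem (hT i hi2).1)).2.1
    have hja := (mem_Lam.1 (par_mem (hT j hj2).1)).2.1
    rw [(hT i hi2).2] at hi3 hia
    rw [(hT j hj2).2] at hj3 hja
    rcases hi3 with hi3 | ⟨hi3, hi4⟩
    · exact absurd hi3 hi1
    rcases hj3 with hj3 | ⟨hj3, hj4⟩
    · exact absurd hj3 hj1
    rcases lt_trichotomy i j with h | h | h
    · have := hj4 i hia h
      omega
    · exact h
    · have := hi4 j hja h
      omega
  have h2 : (T.erase (a + 1)).card ≤ 1 := card_le_one.2 h1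
  have h3 : T.card ≤ (T.erase (a + 1)).card + 1 := by
    by_cases h : a + 1 ∈ T
    · rw [card_erase_of_mem h]
      omega
    · rw [erase_eq_of_notMem h]
      omega
  omega

open Classical in
/-- the number of the boundaries of relative rank `n` -/
theorem card_level (o : ℕ) (N n : ℕ) :
    ((Icc o N).filter (fun i => (i = o ∨ Lnk u o i) ∧ rk u o i = n)).card ≤ 2 ^ n := by
  classical
  induction n with
  | zero =>
    rw [pow_zero, card_le_one]
    have key : ∀ i ∈ (Icc o N).filter (fun i => (i = o ∨ Lnk u o i) ∧ rk u o i = 0), i = o := by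
      intro i hi
      rw [mem_filter] at hi
      rcases hi.2.1 with h | h
      · exact h
      · have := rk_pos (le_refl o) h
        omega
    intro i hi j hj
    rw [key i hi, key j hj]
  | succ n ih =>
    have hmem : ∀ i ∈ (Icc o N).filter (fun i => (i = o ∨ Lnk u o i) ∧ rk u o i = n + 1),
        (Lam u o i).Nonempty ∧ i ≤ N ∧ Lnk u o i := by
      intro i hi
      rw [mem_filter, mem_Icc] at hi
      rcases hi.2.1 with h | h
      · exfalso
        rw [h] at hi
        have h5 : rk u o o = 0 := by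
          unfold rk Lam
          simp
        omega
      · exact ⟨⟨o, mem_Lam.2 ⟨le_rfl, h⟩⟩, hi.1.2, h⟩
    have h := card_le_mul_card_image_of_maps_to
      (s := (Icc o N).filter (fun i => (i = o ∨ Lnk u o i) ∧ rk u o i = n + 1))
      (t := (Icc o N).filter (fun i => (i = o ∨ Lnk u o i) ∧ rk u o i = n))
      (f := par u o) (fun i hi => ?_) 2 (fun a _ => ?_)
    · rw [pow_succ]
      linarith
    · obtain ⟨hne, hiN, hl⟩ := hmem i hi
      have hr := rk_par hne
      have hp := mem_Lam.1 (par_mem hne)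
      rw [mem_filter] at hi
      rw [mem_filter, mem_Icc]
      refine ⟨⟨hp.1, hp.2.1.le.trans hiN⟩, ?_, by omega⟩
      rcases eq_or_lt_of_le hp.1 with h | h
      · exact Or.inl h.symm
      · exact Or.inr (hl.mono h hp.2.1.le)
    · refine card_children (u := u) o a _ fun i hi => ?_
      rw [mem_filter] at hi
      exact ⟨(hmem i hi.1).1, hi.2⟩

open Classical in
/-- `∑ θ ^ rank ≤ 2` over a root -/
theorem sum_root (o N : ℕ) {θ : ℝ} (h0 : 0 ≤ θ) (h1 : θ ≤ 1 / 4) :
    ∑ i ∈ (Icc o N).filter (fun i => i = o ∨ Lnk u o i), θ ^ rk u o i ≤ 2 := by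
  classical
  have h2 : ∀ i ∈ (Icc o N).filter (fun i => i = o ∨ Lnk u o i), rk u o i ∈ range (N + 1) := by
    intro i hi
    rw [mem_filter, mem_Icc] at hi
    rw [mem_range]
    unfold rk Lam
    refine lt_of_le_of_lt (card_le_card (filter_subset _ _)) ?_
    rw [Nat.card_Ico]
    omega
  rw [← sum_fiberwise_of_maps_to h2]
  calc ∑ n ∈ range (N + 1), ∑ i ∈ ((Icc o N).filter (fun i => i = o ∨ Lnk u o i)).filter
        (fun i => rk u o i = n), θ ^ rk u o i
      ≤ ∑ n ∈ range (N + 1), (1 / 2 : ℝ) ^ n := by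
        refine sum_le_sum fun n _ => ?_
        have h3 : ∑ i ∈ ((Icc o N).filter (fun i => i = o ∨ Lnk u o i)).filter
            (fun i => rk u o i = n), θ ^ rk u o i
            = ((((Icc o N).filter (fun i => i = o ∨ Lnk u o i)).filter
            (fun i => rk u o i = n)).card : ℝ) * θ ^ n := by
          rw [← nsmul_eq_mul]
          refine sum_eq_card_nsmul fun i hi => ?_
          rw [(mem_filter.1 hi).2]
        rw [h3]
        have h4 : ((((Icc o N).filter (fun i => i = o ∨ Lnk u o i)).filter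
            (fun i => rk u o i = n)).card : ℝ) ≤ 2 ^ n := by
          have := card_level (u := u) o N n
          rw [filter_filter]
          exact_mod_cast this
        calc _ ≤ (2 : ℝ) ^ n * (1 / 4) ^ n := by
              refine mul_le_mul h4 (pow_le_pow_left₀ h0 h1 n) (pow_nonneg h0 n) (by positivity)
          _ = (1 / 2 : ℝ) ^ n := by rw [← mul_pow]; norm_num
    _ ≤ 2 := by
        have := Summable.sum_le_tsum (f := fun n : ℕ => (1 / 2 : ℝ) ^ n) (range (N + 1))
          (fun i _ => by positivity) (summable_geometric_of_lt_one (by norm_num) (by norm_num))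
        rw [tsum_geometric_of_lt_one (by norm_num) (by norm_num)] at this
        norm_num at this ⊢
        exact this

/-! ### Chains -/

/-- ranks along a chain of links -/
theorem rk_chain (o : ℕ) (t : ℕ → ℕ) (m : ℕ) (h0 : o ≤ t 0)
    (h : ∀ n < m, Lnk u (t n) (t (n + 1))) : ∀ n ≤ m, n ≤ rk u o (t n) := by
  intro n
  induction n with
  | zero => intro _; exact Nat.zero_le _
  | succ n ih =>
    intro hn
    have h1 := ih (by omega)
    have h2 : o ≤ t n := by
      have : ∀ k ≤ n, o ≤ t k := by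
        intro k
        induction k with
        | zero => intro _; exact h0
        | succ k ihk =>
          intro hk
          exact (ihk (by omega)).trans (h k (by omega)).1.le
      exact this n le_rfl
    have h3 := rk_lt h2 (h n (by omega))
    omega

/-- the end of the root of `a`: if `i` is not linked and not `a`, some prefix has an `E`-majority -/
theorem exists_maj {a i : ℕ} (h : a < i) (hn : ¬ Lnk u a i) : ∃ b, a < b ∧ b ≤ i ∧ S u a b = 1 := by
  classical
  have h1 : ∃ b, a < b ∧ b ≤ i ∧ 0 < S u a b := by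
    by_contra hcon
    push Not at hcon
    exact hn ⟨h, fun b hb hbi => hcon b hb hbi⟩
  obtain ⟨h2, h3, h4⟩ := Nat.find_spec h1
  have hmin := fun m => Nat.find_min (m := m) h1
  set b := Nat.find h1
  refine ⟨b, h2, h3, ?_⟩
  have h5 : S u a (b - 1) ≤ 0 := by
    rcases eq_or_lt_of_le (show a ≤ b - 1 by omega) with h6 | h6
    · rw [← h6, S_self]
    · by_contra hcon
      exact hmin (b - 1) (by omega) ⟨h6, by omega, by omega⟩
  have h6 : S u a b = S u a (b - 1) + stp (u (b - 1)) := by
    conv_lhs => rw [show b = (b - 1) + 1 by omega]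
    exact S_succ (by omega)
  rcases stp_cases (u (b - 1)) with h7 | h7 <;> omega

end Vale.P028.H669
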